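import Vale.Agent.P123.Defs
import Vale.Agent.P123.Main

open Vale.Agent.P123

theorem Vale.Agent.Results.P123.Crouzeix.result {H : Type*} [NormedAddCommGroup H]
    [InnerProductSpace ℂ H] [CompleteSpace H] [Nontrivial H] (A : H →L[ℂ] H) (p : Polynomial ℂ) :
    ‖Polynomial.aeval A p‖ ≤ 2 * sSup ((fun z => ‖p.eval z‖) '' numRange A) :=
  crouzeix A p
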